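import Vale.Agent.P168.Lower.Glue
import Vale.Agent.P168.Truncate.Main
import Vale.Agent.P168.Upper.Main
import Vale.Agent.P168.CavBound.Main
import Vale.Agent.P168.CavTrial.Main
import Vale.Agent.P168.Limit.Main

/-!
P168: the Mézard–Parisi formula for diluted spin glasses.
-/

open MeasureTheory Filter Topology
open Vale.Agent.P168

/-- For the whole class, the pressures converge to the infimum of the trial functional over all
depths and parameters. -/
theorem Vale.Agent.Results.P168.MezardParisi.result :
    ∀ K : ℕ, 2 ≤ K → Even K → ∀ lam : ℝ, 0 < lam →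
      ∀ (Ω : Type) (_ : MeasurableSpace Ω) (P : Measure Ω) (_ : IsProbabilityMeasure P)
        (a b : Ω → ℝ) (f : Fin K → Ω → Bool → ℝ) (ν : Measure ℝ) (_ : IsProbabilityMeasure ν),
        InClass P a b f ν →
          ∃ L : ℝ, IsGLB (trialValues lam (clauseLaw P a b f) ν) L ∧
            Tendsto (pressure lam (clauseLaw P a b f) ν) atTop (𝓝 L) :=
  mezardParisi_of upperBound (lowerBdd_of (CavBound.cavityBound_of limitArrays) cavityTrial)
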